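import Vale.Agent.P181.BL.Defs

set_option autoImplicit false

/-!
# P181, BL [B11]: the polylogarithmic form of the block lemma, from `CoreR`
-/

namespace Vale.Agent.P181.BL.H613

open Vale.Agent.P181.H280 (plethMult)
open Vale.Agent.P181.SZ
open Vale.Agent.P181.BL
open Filter Asymptotics

/-- A power of a polylogarithm is below the variable. -/
theorem exists_poly (C₀ : ℝ) (c₀ : ℕ) (hC : 0 < C₀) : ∃ A : ℕ, ∀ a : ℕ, A ≤ a →
    ((2 : ℝ) ^ 42 * (C₀ * (1 + Real.log a) ^ c₀ + 2) ^ 10 ≤ a) := by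
  have h1 : (fun x : ℝ => Real.log x ^ (10 * c₀)) =o[atTop] (id : ℝ → ℝ) :=
    Real.isLittleO_pow_log_id_atTop
  set K : ℝ := (2 : ℝ) ^ 42 * (C₀ * 2 ^ c₀ + 2) ^ 10 with hK
  have hK0 : 0 < K := by positivity
  have h2 := h1.def (c := K⁻¹) (by positivity)
  have h3 : ∀ᶠ x : ℝ in atTop, K * Real.log x ^ (10 * c₀) ≤ x ∧ 1 ≤ Real.log x := by
    filter_upwards [h2, Real.tendsto_log_atTop.eventually_ge_atTop 1, eventually_ge_atTop 0]
      with x hx hl hx0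
    refine ⟨?_, hl⟩
    have h4 : |Real.log x ^ (10 * c₀)| ≤ K⁻¹ * |x| := by simpa using hx
    rw [abs_of_nonneg hx0] at h4
    have h5 := le_trans (le_abs_self _) h4
    calc K * Real.log x ^ (10 * c₀) ≤ K * (K⁻¹ * x) := by gcongr
      _ = x := by field_simp
  obtain ⟨A, hA⟩ := eventually_atTop.1 (tendsto_natCast_atTop_atTop.eventually h3)
  refine ⟨A, fun a ha => ?_⟩
  obtain ⟨h6, h7⟩ := hA a ha
  refine le_trans ?_ h6
  set l := Real.log (a : ℝ) with hl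
  have h8 : (1 : ℝ) ≤ l ^ c₀ := one_le_pow₀ h7
  have h9 : C₀ * (1 + l) ^ c₀ + 2 ≤ (C₀ * 2 ^ c₀ + 2) * l ^ c₀ := by
    have : (1 + l) ^ c₀ ≤ (2 * l) ^ c₀ := by gcongr; linarith
    rw [mul_pow] at this
    nlinarith
  have h10 : (0 : ℝ) ≤ C₀ * (1 + l) ^ c₀ + 2 := by positivity
  calc (2 : ℝ) ^ 42 * (C₀ * (1 + l) ^ c₀ + 2) ^ 10
      ≤ (2 : ℝ) ^ 42 * ((C₀ * 2 ^ c₀ + 2) * l ^ c₀) ^ 10 := by gcongr
    _ = K * l ^ (10 * c₀) := by rw [hK, mul_pow, ← pow_mul, mul_comm c₀ 10]; ring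

/-- The sum of the tail is at most the sum of the rows below row one. -/
theorem sum_tail_le {k r : ℕ} (lam : Fin (k + 1 + r + 2) → ℕ) :
    ∑ i, tail lam i ≤ ∑ i, tl lam i := by
  let e : Fin (k + 1) ↪ Fin (k + 1 + r + 1) :=
    ⟨fun i => ⟨i + r + 1, by omega⟩, fun i j h => by
      have := congrArg Fin.val h
      simp only at this
      exact Fin.ext (by omega)⟩
  calc ∑ i, tail lam i = ∑ i, tl lam (e i) := rfl
    _ = ∑ j ∈ Finset.univ.map e, tl lam j := (Finset.sum_map _ _ _).symm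
    _ ≤ ∑ j, tl lam j := Finset.sum_le_sum_of_subset (Finset.subset_univ _)

/-- The gap. -/
theorem numGap (a P q r g₁ g₂ v z : ℕ) (hP : 1 ≤ P) (hPa : 1300 * P ^ 3 + 32 * P ^ 2 ≤ a)
    (hq : q ≤ 25 * P) (hq1 : 1 + q ≤ 26 * P) (hr : r + 1 ≤ 2 * P)
    (hg : a ^ 2 + P * g₂ ≤ P * g₁) (hv : 4 * (P * q * v) ≤ a) (hz : 4 * (P * q * z) ≤ a) :
    g₂ + q * a * (1 + v + z + q) + 8 * (r + 1) * a ≤ g₁ := by
  have h1 : 2 * P * (q * (1 + q)) + 16 * P * (r + 1) ≤ a := by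
    calc 2 * P * (q * (1 + q)) + 16 * P * (r + 1)
        ≤ 2 * P * (25 * P * (26 * P)) + 16 * P * (2 * P) :=
          Nat.add_le_add (Nat.mul_le_mul_left _ (Nat.mul_le_mul hq hq1))
            (Nat.mul_le_mul_left _ hr)
      _ = 1300 * P ^ 3 + 32 * P ^ 2 := by ring
      _ ≤ a := hPa
  have h3 : 2 * (P * q * v) + 2 * (P * q * z) ≤ a := by omega
  have h2 : 2 * P * (q * a * (1 + v + z + q)) ≤ 2 * P * (q * (1 + q)) * a + a * a := by
    calc 2 * P * (q * a * (1 + v + z + q))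
        = 2 * P * (q * (1 + q)) * a + a * (2 * (P * q * v) + 2 * (P * q * z)) := by ring
      _ ≤ 2 * P * (q * (1 + q)) * a + a * a := Nat.add_le_add_left (Nat.mul_le_mul_left _ h3) _
  have h4 : (2 * P) * (g₂ + q * a * (1 + v + z + q) + 8 * (r + 1) * a) ≤ (2 * P) * g₁ := by
    calc (2 * P) * (g₂ + q * a * (1 + v + z + q) + 8 * (r + 1) * a)
        = 2 * (P * g₂) + 2 * P * (q * a * (1 + v + z + q)) + 16 * P * (r + 1) * a := by ring
      _ ≤ 2 * (P * g₂) + (2 * P * (q * (1 + q)) * a + a * a) + 16 * P * (r + 1) * a :=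
          Nat.add_le_add_right (Nat.add_le_add_left h2 _) _
      _ = 2 * (P * g₂) + a * a + (2 * P * (q * (1 + q)) + 16 * P * (r + 1)) * a := by ring
      _ ≤ 2 * (P * g₂) + a * a + a * a := Nat.add_le_add_left (Nat.mul_le_mul_right _ h1) _
      _ = 2 * (a ^ 2 + P * g₂) := by ring
      _ ≤ 2 * (P * g₁) := Nat.mul_le_mul_left _ hg
      _ = (2 * P) * g₁ := by ring
  exact Nat.le_of_mul_le_mul_left h4 (by omega)

/-- The size of `b`. -/
theorem numB (a b t w y : ℕ) (ha : 90 ≤ a) (hab : 110 * a ≤ b) (ht : t ≤ w)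
    (hw : 200 * w ≤ a * b) (hy : y * a ^ 2 ≤ 16 * t) :
    3 * (24 + y) * a + 6 * (w / a) + 6 ≤ b := by
  have ha0 : 0 < a := by omega
  have h2 : a * (200 * (y * a)) ≤ a * (16 * b) := by
    calc a * (200 * (y * a)) = 200 * (y * a ^ 2) := by ring
      _ ≤ 200 * (16 * t) := Nat.mul_le_mul_left _ hy
      _ ≤ 200 * (16 * w) := Nat.mul_le_mul_left _ (Nat.mul_le_mul_left _ ht)
      _ = 16 * (200 * w) := by ring
      _ ≤ 16 * (a * b) := Nat.mul_le_mul_left _ hw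
      _ = a * (16 * b) := by ring
  have h3 : 200 * (y * a) ≤ 16 * b := Nat.le_of_mul_le_mul_left h2 ha0
  have h4 : w / a * a ≤ w := Nat.div_mul_le_self _ _
  have h5 : a * (200 * (w / a)) ≤ a * b := by
    calc a * (200 * (w / a)) = 200 * (w / a * a) := by ring
      _ ≤ 200 * w := Nat.mul_le_mul_left _ h4
      _ ≤ a * b := hw
  have h6 : 200 * (w / a) ≤ b := Nat.le_of_mul_le_mul_left h5 ha0
  have h7 : 3 * (24 + y) * a = 72 * a + 3 * (y * a) := by ring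
  rw [h7]
  generalize w / a = w' at h6 ⊢
  generalize y * a = y' at h3 ⊢
  clear h2 h4 h5 h7 hy hw
  omega

/-- The width of the windows. -/
theorem numX (a D X : ℕ) (hD0 : 0 < D) (hD : 4 * D ^ 2 ≤ a) (hX : X = a / D) :
    1 ≤ X ∧ D * X ≤ a ∧ a ≤ X ^ 2 := by
  have hDa : D ≤ a := by
    have : D ≤ D ^ 2 := by nlinarith
    omega
  have hX1 : 1 ≤ X := by rw [hX]; exact Nat.div_pos hDa hD0
  have hX2 : a < D * (X + 1) := by rw [hX]; exact Nat.lt_mul_div_succ _ hD0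
  have hDX : D * X ≤ a := by rw [hX]; exact Nat.mul_div_le _ _
  have hX3 : a < 2 * D * X := by nlinarith
  refine ⟨hX1, hDX, ?_⟩
  have h1 : a * a < a * X ^ 2 := by
    calc a * a < (2 * D * X) * (2 * D * X) := Nat.mul_lt_mul_of_lt_of_lt hX3 hX3
      _ = 4 * D ^ 2 * X ^ 2 := by ring
      _ ≤ a * X ^ 2 := Nat.mul_le_mul_right _ hD
  exact (Nat.lt_of_mul_lt_mul_left h1).le

/-- The quotient of the tail. -/
theorem numU (a t q : ℕ) (ha : 0 < a) (hq : 0 < q) (hqa : 16 * t ≤ q * a ^ 2) :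
    16 * (t / a / q) ≤ a := by
  set u := t / a / q with hu
  have h1 : u * q ≤ t / a := Nat.div_mul_le_self _ _
  have h2 : t / a * a ≤ t := Nat.div_mul_le_self _ _
  have h3 : (q * a) * (16 * u) ≤ (q * a) * a := by
    calc (q * a) * (16 * u) = 16 * (u * q * a) := by ring
      _ ≤ 16 * (t / a * a) := Nat.mul_le_mul_left _ (Nat.mul_le_mul_right _ h1)
      _ ≤ 16 * t := Nat.mul_le_mul_left _ h2
      _ ≤ q * a ^ 2 := hqa
      _ = (q * a) * a := by ring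
  exact Nat.le_of_mul_le_mul_left h3 (Nat.mul_pos hq ha)

/-- The number of the pieces. -/
theorem numQ (a b t w P q : ℕ) (ha : 0 < a) (hbP : b ≤ P * a) (ht : t ≤ w)
    (hw : 200 * w ≤ a * b) (hq : q = 24 + 16 * t / a ^ 2) :
    24 ≤ q ∧ q ≤ 24 + P ∧ 16 * t ≤ q * a ^ 2 := by
  have ha2 : 0 < a ^ 2 := by positivity
  have h16w : 16 * t ≤ P * a ^ 2 := by
    have h1 : a * b ≤ P * a ^ 2 := by
      calc a * b ≤ a * (P * a) := Nat.mul_le_mul_left _ hbP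
        _ = P * a ^ 2 := by ring
    omega
  have hyt : 16 * t < a ^ 2 * (16 * t / a ^ 2 + 1) := Nat.lt_mul_div_succ _ ha2
  have hyu : 16 * t / a ^ 2 * a ^ 2 ≤ 16 * t := Nat.div_mul_le_self _ _
  have hqt : 16 * t / a ^ 2 ≤ P := by
    have h1 : a ^ 2 * (16 * t / a ^ 2) ≤ a ^ 2 * P := by
      calc a ^ 2 * (16 * t / a ^ 2) = 16 * t / a ^ 2 * a ^ 2 := mul_comm _ _
        _ ≤ 16 * t := hyu
        _ ≤ P * a ^ 2 := h16w
        _ = a ^ 2 * P := mul_comm _ _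
    exact Nat.le_of_mul_le_mul_left h1 ha2
  generalize 16 * t / a ^ 2 = y at hq hyt hyu hqt
  refine ⟨by omega, by omega, ?_⟩
  have h2 : y + 1 ≤ q := by omega
  calc 16 * t ≤ a ^ 2 * (y + 1) := hyt.le
    _ ≤ a ^ 2 * q := Nat.mul_le_mul_left _ h2
    _ = q * a ^ 2 := mul_comm _ _

/-- The powers of `P`. -/
theorem numP (a P q m r D : ℕ) (hP : 1 ≤ P) (hPa : 2 ^ 42 * P ^ 10 ≤ a) (hr : r ≤ P)
    (hq24 : 24 ≤ q) (hq : q ≤ 24 + P) (hm : m = 4 * P * q ^ 2)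
    (hD : D = 4 * P * q * (m + r + 1)) :
    2 ^ 42 * P ^ 3 ≤ a ∧ 1 ≤ m ∧ 0 < D ∧ 4 * D ^ 2 ≤ a := by
  have hP3 : 2 ^ 42 * P ^ 3 ≤ a :=
    le_trans (Nat.mul_le_mul_left _ (Nat.pow_le_pow_right hP (by norm_num))) hPa
  have hP1 : P ≤ P ^ 3 := by
    calc P = P ^ 1 := (pow_one P).symm
      _ ≤ P ^ 3 := Nat.pow_le_pow_right hP (by norm_num)
  have hq25 : q ≤ 25 * P := by omega
  have hm1 : 1 ≤ m := by
    rw [hm]
    have : 0 < 4 * P * q ^ 2 := by positivity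
    omega
  have hm2 : m ≤ 2500 * P ^ 3 := by
    rw [hm]
    calc 4 * P * q ^ 2 ≤ 4 * P * (25 * P) ^ 2 :=
          Nat.mul_le_mul_left _ (Nat.pow_le_pow_left hq25 2)
      _ = 2500 * P ^ 3 := by ring
  have hm3 : m + r + 1 ≤ 2502 * P ^ 3 := by omega
  have hD0 : 0 < D := by rw [hD]; positivity
  have hD1 : D ≤ 2 ^ 18 * P ^ 5 := by
    calc D = 4 * P * q * (m + r + 1) := hD
      _ ≤ 4 * P * (25 * P) * (2502 * P ^ 3) :=
          Nat.mul_le_mul (Nat.mul_le_mul_left _ hq25) hm3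
      _ = 250200 * P ^ 5 := by ring
      _ ≤ 2 ^ 18 * P ^ 5 := Nat.mul_le_mul_right _ (by norm_num)
  refine ⟨hP3, hm1, hD0, ?_⟩
  calc 4 * D ^ 2 ≤ 4 * (2 ^ 18 * P ^ 5) ^ 2 :=
        Nat.mul_le_mul_left _ (Nat.pow_le_pow_left hD1 2)
    _ = 2 ^ 38 * P ^ 10 := by ring
    _ ≤ 2 ^ 42 * P ^ 10 := Nat.mul_le_mul_right _ (by norm_num)
    _ ≤ a := hPa

/-- The natural number bookkeeping. -/
theorem nums (a b t w P q m X r g₁ g₂ : ℕ) (hP : 1 ≤ P) (hPa : 2 ^ 42 * P ^ 10 ≤ a)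
    (hab : 110 * a ≤ b) (hbP : b ≤ P * a) (hrP : r ≤ P)
    (hg : a ^ 2 + P * g₂ ≤ P * g₁) (ht : t ≤ w) (hw : 200 * w ≤ a * b)
    (hq : q = 24 + 16 * t / a ^ 2) (hm : m = 4 * P * q ^ 2)
    (hX : X = a / (4 * P * q * (m + r + 1))) :
    6 ≤ a ∧ b ≤ a ^ 2 ∧ 24 ≤ q ∧ 1 ≤ m ∧ 1 ≤ X ∧ 32 * (r + 1) ≤ a ∧ a ≤ X ^ 2 ∧
    2 * (t / a / q + 1 + (m + r + 1) * X + q * (a / m) + q) ≤ a ∧
    g₂ + Eb a q m X r + 8 * (r + 1) * a ≤ g₁ ∧
    3 * q * a + 6 * (w / a) + 6 ≤ b := by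
  have ha00 : 0 < a := lt_of_lt_of_le (by positivity) hPa
  obtain ⟨hq24, hqP, hqa⟩ := numQ a b t w P q ha00 hbP ht hw hq
  obtain ⟨hP3, hm1, hD0, hD2⟩ := numP a P q m r _ hP hPa hrP hq24 hqP hm rfl
  obtain ⟨hX1, hDX, hX4⟩ := numX a _ X hD0 hD2 hX
  have hP1 : P ≤ P ^ 3 := by
    calc P = P ^ 1 := (pow_one P).symm
      _ ≤ P ^ 3 := Nat.pow_le_pow_right hP (by norm_num)
  have hP2 : P ^ 2 ≤ P ^ 3 := Nat.pow_le_pow_right hP (by norm_num)
  have hPP : 2 ^ 42 * P ≤ a := le_trans (Nat.mul_le_mul_left _ hP1) hP3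
  have hba : b ≤ a ^ 2 := by
    calc b ≤ P * a := hbP
      _ ≤ a * a := Nat.mul_le_mul_right _ (by clear hg hw; omega)
      _ = a ^ 2 := by ring
  have h16u : 16 * (t / a / q) ≤ a := numU a t q ha00 (by omega) hqa
  have hPqv : 4 * (P * q * ((m + r + 1) * X)) ≤ a := by
    calc 4 * (P * q * ((m + r + 1) * X)) = 4 * P * q * (m + r + 1) * X := by ring
      _ ≤ a := hDX
  have hPqz : 4 * (P * q * (q * (a / m))) ≤ a := by
    calc 4 * (P * q * (q * (a / m))) = m * (a / m) := by rw [hm]; ring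
      _ ≤ a := Nat.mul_div_le _ _
  have h24 : 24 ≤ P * q := by
    calc 24 ≤ 1 * q := by omega
      _ ≤ P * q := Nat.mul_le_mul_right _ hP
  have h96v : 96 * ((m + r + 1) * X) ≤ a := by
    calc 96 * ((m + r + 1) * X) = 4 * (24 * ((m + r + 1) * X)) := by ring
      _ ≤ 4 * (P * q * ((m + r + 1) * X)) :=
          Nat.mul_le_mul_left _ (Nat.mul_le_mul_right _ h24)
      _ ≤ a := hPqv
  have h96z : 96 * (q * (a / m)) ≤ a := by
    calc 96 * (q * (a / m)) = 4 * (24 * (q * (a / m))) := by ring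
      _ ≤ 4 * (P * q * (q * (a / m))) :=
          Nat.mul_le_mul_left _ (Nat.mul_le_mul_right _ h24)
      _ ≤ a := hPqz
  have hgap : g₂ + q * a * (1 + (m + r + 1) * X + q * (a / m) + q) + 8 * (r + 1) * a ≤ g₁ :=
    numGap a P q r g₁ g₂ _ _ hP (by clear hg hw hba hPqv hPqz hDX; omega)
      (by clear hg hw hba hPqv hPqz hDX; omega) (by clear hg hw hba hPqv hPqz hDX; omega)
      (by clear hg hw hba hPqv hPqz hDX; omega) hg hPqv hPqz
  have hb : 3 * q * a + 6 * (w / a) + 6 ≤ b := by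
    rw [hq]
    exact numB a b t w _ (by clear hg hw hba hPqv hPqz hDX; omega) hab ht hw
      (Nat.div_mul_le_self _ _)
  refine ⟨by clear hg hw hba hPqv hPqz hDX; omega, hba, hq24, hm1, hX1,
    by clear hg hw hba hPqv hPqz hDX; omega, hX4, ?_, hgap, hb⟩
  generalize t / a / q = u at h16u ⊢
  generalize (m + r + 1) * X = v at h96v ⊢
  generalize q * (a / m) = z at h96z ⊢
  clear hg hw hba hPqv hPqz hDX hgap hb hX hq hm hD0 hD2 hX4
  omega

theorem blkP (h : CoreR) : BlkP := by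
  intro C₀ c₀ hC
  obtain ⟨A, hA⟩ := exists_poly C₀ c₀ hC
  refine ⟨A + 1, fun a b k r lam hanti hsum ha hab hb hr1 hr hgap hw => ?_⟩
  have ha1 : 1 ≤ a := by omega
  have hl0 : 0 ≤ Real.log (a : ℝ) := Real.log_natCast_nonneg a
  set B : ℝ := C₀ * (1 + Real.log a) ^ c₀ with hB
  have hB0 : 0 < B := by positivity
  set P : ℕ := ⌈B⌉₊ + 1 with hP
  have hBP : B ≤ P := by
    rw [hP]; push_cast
    have := Nat.le_ceil B
    linarith
  have hPB : (P : ℝ) ≤ B + 2 := by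
    rw [hP]; push_cast
    have := Nat.ceil_lt_add_one hB0.le
    linarith
  have hPa : 2 ^ 42 * P ^ 10 ≤ a := by
    have h1 := hA a (by omega)
    have h2 : ((2 : ℝ) ^ 42 * (P : ℝ) ^ 10) ≤ a := by
      refine le_trans ?_ h1
      gcongr
    exact_mod_cast h2
  have hbP : b ≤ P * a := by
    have : (b : ℝ) ≤ P * a := le_trans hb (by gcongr)
    exact_mod_cast this
  have hrP : r ≤ P := by
    have : (r : ℝ) ≤ P := le_trans hr hBP
    exact_mod_cast this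
  have hanti' : lam ⟨r + 2, by omega⟩ ≤ lam ⟨r + 1, by omega⟩ := hanti (by
    rw [Fin.le_def]; simp)
  have hg : a ^ 2 + P * lam ⟨r + 2, by omega⟩ ≤ P * lam ⟨r + 1, by omega⟩ := by
    have h1 : (a : ℝ) ^ 2 ≤ P * ((lam ⟨r + 1, by omega⟩ : ℝ) - lam ⟨r + 2, by omega⟩) := by
      refine le_trans hgap ?_
      have : (0 : ℝ) ≤ (lam ⟨r + 1, by omega⟩ : ℝ) - lam ⟨r + 2, by omega⟩ := by
        have : (lam ⟨r + 2, by omega⟩ : ℝ) ≤ lam ⟨r + 1, by omega⟩ := by exact_mod_cast hanti'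
        linarith
      gcongr
    have h2 : (a : ℝ) ^ 2 + P * (lam ⟨r + 2, by omega⟩ : ℝ) ≤ P * (lam ⟨r + 1, by omega⟩ : ℝ) := by
      linarith
    exact_mod_cast h2
  obtain ⟨e1, e2, e3, e4, e5, e6, e7, e8, e9, e10⟩ := nums a b (∑ i, tail lam i) (∑ i, tl lam i) P
    (24 + 16 * (∑ i, tail lam i) / a ^ 2) _ _ r (lam ⟨r + 1, by omega⟩) (lam ⟨r + 2, by omega⟩)
    (by omega) hPa hab hbP hrP hg (sum_tail_le lam) hw rfl rfl rfl
  exact h a b k r _ _ _ lam hanti hsum e1 e2 hr1 e3 e4 e5 e6 e7 e8 e9 e10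

end Vale.Agent.P181.BL.H613
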